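import Vale.Agent.P153DM.Momh
import Vale.Agent.P153DH.Props

/-!
The moment bound in the form of the interface.
-/

set_option autoImplicit false

namespace P153DM

theorem momh_thm : Vale.Agent.P153DH.MOMH := by
  intro Φ δ N k p S hA
  obtain ⟨R, -, hR⟩ := reg_ball hA
  obtain ⟨C, hC0, hC⟩ := momh hA
  exact ⟨⟨R, hR⟩, C, hC0, fun n B hB E _ _ _ b M hb hM => hC n B hB E b M hb hM⟩

end P153DM
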