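import Vale.Agent.P153DM.Lat

/-!
Second moments of the heights integrated against a bounded function with values in a Hilbert
space.
-/

set_option autoImplicit false

namespace P153DM

open Filter Topology Set MeasureTheory ProbabilityTheory
open Vale.Agent.P153 Vale.Agent.P153.H212 Vale.Agent.P153.R2

theorem hat_cont : Continuous hat := by
  unfold hat
  fun_prop

theorem hat_nonneg (z : ℂ) : 0 ≤ hat z := le_max_left _ _

theorem hat_cs : HasCompactSupport hat := by
  refine HasCompactSupport.intro (isCompact_closedBall (0 : ℂ) 4) fun z hz => ?_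
  by_contra hne
  apply hz
  have h3 : (1 : ℝ) ≤ √3 := Real.one_le_sqrt.2 (by norm_num)
  have h4 : √3 ≤ 2 := Real.sqrt_le_iff.2 ⟨by norm_num, by norm_num⟩
  have h1 : max |z.re - z.im / √3| (max |2 * z.im / √3| |z.re + z.im / √3|) < 1 := by
    by_contra hc
    apply hne
    unfold hat
    exact max_eq_left (by linarith [not_lt.1 hc])
  rw [max_lt_iff, max_lt_iff] at h1
  obtain ⟨a1, a2, a3⟩ := h1
  have b1 : |z.re| ≤ 1 := by
    rw [abs_lt] at a1 a3
    rw [abs_le]
    constructor <;> linarith [a1.1, a1.2, a3.1, a3.2]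
  have b2 : |z.im| ≤ 1 := by
    rw [abs_div, abs_mul, abs_two, abs_of_pos (by linarith : (0 : ℝ) < √3),
      div_lt_one (by linarith)] at a2
    linarith
  rw [mem_closedBall_zero_iff]
  linarith [Complex.norm_le_abs_re_add_abs_im z]

theorem hat_int : Integrable hat := hat_cont.integrable_of_hasCompactSupport hat_cs

theorem div_eq (δ : ℝ) (z : ℂ) : z / δ = δ⁻¹ • z := by
  rw [Complex.real_smul, Complex.ofReal_inv, div_eq_mul_inv, mul_comm]

theorem hat_sc_int {δ : ℝ} (hδ : 0 < δ) (w : ℂ) : Integrable fun z : ℂ => hat (z / δ - w) := by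
  simp_rw [div_eq]
  exact (hat_int.comp_sub_right w).comp_smul (inv_ne_zero hδ.ne')

theorem hat_sc (δ : ℝ) (w : ℂ) : ∫ z : ℂ, hat (z / δ - w) = (∫ z, hat z) * δ ^ 2 := by
  simp_rw [div_eq]
  rw [Measure.integral_comp_inv_smul volume (fun z => hat (z - w)) δ, Complex.finrank_real_complex,
    integral_sub_right_eq_self hat w, abs_of_nonneg (sq_nonneg δ), smul_eq_mul, mul_comm]

theorem ext_sum {W : Finset (ℤ × ℤ)} {h : ℤ × ℤ → ℤ} (hW : ∀ v, v ∉ W → h v = 0) (z : ℂ) :
    ext h z = ∑ v ∈ W, h v * hat (z - pt v) := by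
  unfold H212.ext
  refine finsum_eq_sum_of_support_subset _ fun v hv => ?_
  by_contra hc
  exact hv (by simp [hW v hc])

theorem region_cpt (δ : ℝ) (S : Finset (Finset (ℤ × ℤ))) : IsCompact (region δ S) :=
  S.finite_toSet.isCompact_biUnion fun t _ =>
    (t.finite_toSet.image _).isCompact_convexHull (𝕜 := ℝ)

section

variable {E : Type*} [NormedAddCommGroup E] [NormedSpace ℝ E]

theorem int_sum {W : Finset (ℤ × ℤ)} {h : ℤ × ℤ → ℤ} (hW : ∀ v, v ∉ W → h v = 0) (δ : ℝ)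
    (S : Finset (Finset (ℤ × ℤ))) {b : ℂ → E} (hb : Continuous b) :
    ∫ z in region δ S, ext h (z / δ) • b z =
      ∑ v ∈ W, (h v : ℝ) • ∫ z in region δ S, hat (z / δ - pt v) • b z := by
  have hi : ∀ v : ℤ × ℤ, IntegrableOn (fun z : ℂ => hat (z / δ - pt v) • b z) (region δ S) := by
    intro v
    refine ContinuousOn.integrableOn_compact (region_cpt δ S) (Continuous.continuousOn ?_)
    exact (hat_cont.comp (by fun_prop)).smul hb
  simp_rw [ext_sum hW, Finset.sum_smul, mul_smul]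
  rw [integral_finsetSum W (f := fun v z => (h v : ℝ) • hat (z / δ - pt v) • b z)
    fun v _ => (hi v).smul (h v : ℝ)]
  exact Finset.sum_congr rfl fun v _ => integral_smul _ _

theorem wt_le {δ : ℝ} (hδ : 0 < δ) (S : Finset (Finset (ℤ × ℤ))) {b : ℂ → E} {M : ℝ}
    (hM : ∀ z ∈ region δ S, ‖b z‖ ≤ M) (w : ℂ) :
    ‖∫ z in region δ S, hat (z / δ - w) • b z‖ ≤ (|M| * ∫ z, hat z) * δ ^ 2 := by
  have hi := (hat_sc_int hδ w).const_mul |M|
  have h1 : ‖∫ z in region δ S, hat (z / δ - w) • b z‖ ≤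
      ∫ z in region δ S, |M| * hat (z / δ - w) := by
    refine norm_integral_le_of_norm_le hi.integrableOn ?_
    filter_upwards [ae_restrict_mem (measurableSet_region S δ)] with z hz
    rw [norm_smul, Real.norm_of_nonneg (hat_nonneg _), mul_comm]
    exact mul_le_mul_of_nonneg_right ((hM z hz).trans (le_abs_self M)) (hat_nonneg _)
  refine h1.trans ((setIntegral_le_integral hi (ae_of_all _ fun z => ?_)).trans (le_of_eq ?_))
  · exact mul_nonneg (abs_nonneg M) (hat_nonneg _)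
  · rw [integral_const_mul, hat_sc, mul_assoc]

end

variable {n : ℕ} {p : ZMod n → ℤ × ℤ} {S : Finset (Finset (ℤ × ℤ))}

theorem hts_arcs (h : Encloses p S) (k : ℕ) :
    Heights p S (arcs k) = F.Dom.Arcs.HeightsB p (old S) (FLDI.xi k) := by
  rw [heights_arcs (tris_of h), FLDI.heightsF]

theorem hts_free (h : Encloses p S) : Heights p S free = F.Dom.Heights p (old S) := by
  rw [heights_free (tris_of h), JG3.heights_eq]

theorem vts (h : Encloses p S) : F.Dom.verts (old S) = verts S := verts_old (tris_of h)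

/-- The sets of heights are finite and nonempty. -/
theorem hts_fin (h : Encloses p S) {k : ℕ} {B : ZMod n → Set ℤ} (hB : B = arcs k ∨ B = free) :
    (Heights p S B).Finite ∧ (Heights p S B).Nonempty := by
  have hp := FLDI.polyF (isPolygon h)
  have hS := FLDI.enclF (encl_old h)
  rcases hB with rfl | rfl
  · rw [hts_arcs h]
    exact ⟨FLDI.hB_fin hp hS, F.Dom.Arcs.heightsB_ne hp hS (FLDI.xi_pm k)⟩
  · rw [hts_free h]
    exact ⟨(F.Dom.s_law p _ hp hS).1, (F.Dom.s_law p _ hp hS).2.1⟩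

theorem law_prob (h : Encloses p S) {k : ℕ} {B : ZMod n → Set ℤ} (hB : B = arcs k ∨ B = free) :
    IsProbabilityMeasure (law p S B) :=
  (FLDI.unif_spec (hts_fin h hB).1 (hts_fin h hB).2).1

theorem law_ae (h : Encloses p S) {k : ℕ} {B : ZMod n → Set ℤ} (hB : B = arcs k ∨ B = free) :
    ∀ᵐ g ∂law p S B, g ∈ Heights p S B := by
  unfold law uniformOn
  exact ae_cond_mem (hts_fin h hB).1.measurableSet

/-- Every function is integrable. -/
theorem law_integrable (h : Encloses p S) {k : ℕ} {B : ZMod n → Set ℤ}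
    (hB : B = arcs k ∨ B = free) {E : Type*} [NormedAddCommGroup E] (G : (ℤ × ℤ → ℤ) → E) :
    Integrable G (law p S B) := by
  have h1 : law p S B = (law p S B).restrict (Heights p S B) :=
    (Measure.restrict_eq_self_of_ae_mem (law_ae h hB)).symm
  have := law_prob h hB
  rw [h1]
  exact IntegrableOn.of_finite (hts_fin h hB).1

theorem law_int (h : Encloses p S) {k : ℕ} {B : ZMod n → Set ℤ} (hB : B = arcs k ∨ B = free)
    (G : (ℤ × ℤ → ℤ) → ℝ) : ∫ g, G g ∂law p S B = Ex (Heights p S B) G :=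
  (FLDI.unif_spec (hts_fin h hB).1 (hts_fin h hB).2).2.2 G

theorem law_sum (h : Encloses p S) {k : ℕ} {B : ZMod n → Set ℤ} (hB : B = arcs k ∨ B = free)
    (δ : ℝ) {E : Type*} [NormedAddCommGroup E] [NormedSpace ℝ E] {b : ℂ → E}
    (hb : Continuous b) :
    ∫ g, ‖∫ z in region δ S, ext g (z / δ) • b z‖ ^ 2 ∂law p S B =
      Ex (Heights p S B) fun g =>
        ‖∑ v ∈ verts S, (g v : ℝ) • ∫ z in region δ S, hat (z / δ - pt v) • b z‖ ^ 2 := by
  rw [law_int h hB]
  exact Ex_congr fun g hg => by rw [int_sum hg.2.2.2 δ S hb]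

/-- A bound for each fixed domain. -/
theorem mom_one (h : Encloses p S) (k : ℕ) {δ : ℝ} (hδ : 0 < δ) : ∃ C : ℝ, 0 ≤ C ∧
    ∀ B : ZMod n → Set ℤ, (B = arcs k ∨ B = free) →
      ∀ (E : Type) [NormedAddCommGroup E] [InnerProductSpace ℝ E] (b : ℂ → E) (M : ℝ),
        Continuous b → (∀ z ∈ region δ S, ‖b z‖ ≤ M) →
        ∫ g, ‖∫ z in region δ S, ext g (z / δ) • b z‖ ^ 2 ∂law p S B ≤ C * M ^ 2 := by
  set c : ℝ := (∫ z, hat z) * δ ^ 2 with hc
  set X : (ℤ × ℤ → ℤ) → ℝ := fun g => (∑ v ∈ verts S, |(g v : ℝ)|) ^ 2 with hX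
  have h0 : ∀ B : ZMod n → Set ℤ, 0 ≤ Ex (Heights p S B) X :=
    fun B => Ex_nonneg fun _ _ => sq_nonneg _
  have h1 := h0 (arcs k)
  have h2 := h0 free
  refine ⟨c ^ 2 * (Ex (Heights p S (arcs k)) X + Ex (Heights p S free) X), by positivity, ?_⟩
  intro B hB E _ _ b M hb hM
  rw [law_sum h hB δ hb]
  have h3 : Ex (Heights p S B) (fun g =>
      ‖∑ v ∈ verts S, (g v : ℝ) • ∫ z in region δ S, hat (z / δ - pt v) • b z‖ ^ 2) ≤
      Ex (Heights p S B) fun g => (c * M) ^ 2 * X g := by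
    refine Ex_mono fun g _ => ?_
    have h4 : ‖∑ v ∈ verts S, (g v : ℝ) • ∫ z in region δ S, hat (z / δ - pt v) • b z‖ ≤
        (|M| * c) * ∑ v ∈ verts S, |(g v : ℝ)| := by
      rw [Finset.mul_sum]
      refine (norm_sum_le _ _).trans (Finset.sum_le_sum fun v _ => ?_)
      rw [norm_smul, Real.norm_eq_abs, mul_comm]
      refine mul_le_mul_of_nonneg_right ((wt_le hδ S hM _).trans (le_of_eq ?_)) (abs_nonneg _)
      rw [hc, mul_assoc]
    refine (pow_le_pow_left₀ (norm_nonneg _) h4 2).trans (le_of_eq ?_)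
    rw [mul_pow (|M| * c), mul_pow |M|, mul_pow c, sq_abs, mul_comm (M ^ 2)]
  refine h3.trans ?_
  rw [Ex_const_mul]
  have h5 : Ex (Heights p S B) X ≤ Ex (Heights p S (arcs k)) X + Ex (Heights p S free) X := by
    rcases hB with rfl | rfl <;> linarith
  have h6 := mul_le_mul_of_nonneg_left h5 (sq_nonneg (c * M))
  refine h6.trans (le_of_eq ?_)
  ring

section

variable {Φ : ℂ ≃ₜ ℂ} {δ : ℕ → ℝ} {N k : ℕ → ℕ} {p : ∀ n, ZMod (N n) → ℤ × ℤ}
  {S : ℕ → Finset (Finset (ℤ × ℤ))}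

theorem approxD (hA : Approx Φ δ N k p S) :
    F.Dom.Approx (Final.dom (real Φ)) δ N p (fun n => old (S n)) :=
  FLDI.approxF (k := k) (APPX.approx_of (Φ := real Φ) (k := k) (converges hA))

theorem momh_ev (hA : Approx Φ δ N k p S) : ∃ C : ℝ, 0 ≤ C ∧ ∀ᶠ n in atTop,
    ∀ B : ZMod (N n) → Set ℤ, (B = arcs (k n) ∨ B = free) →
      ∀ (E : Type) [NormedAddCommGroup E] [InnerProductSpace ℝ E] (b : ℂ → E) (M : ℝ),
        Continuous b → (∀ z ∈ region (δ n) (S n), ‖b z‖ ≤ M) →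
        ∫ g, ‖∫ z in region (δ n) (S n), ext g (z / δ n) • b z‖ ^ 2 ∂law (p n) (S n) B ≤
          C * M ^ 2 := by
  have hD := approxD hA
  obtain ⟨C, hC0, hC⟩ := scal FLDI.jordF hD
  refine ⟨16 * C * (∫ z, hat z) ^ 2, by positivity, ?_⟩
  filter_upwards [hC] with n hn B hB E _ _ b M hb hM
  have hE := (hA.1 n).2.2.2
  have hδ := (hA.1 n).1
  obtain ⟨h1, h2⟩ := hn (|M| * ∫ z, hat z)
  have e1 : C * (|M| * ∫ z, hat z) ^ 2 = C * (∫ z, hat z) ^ 2 * M ^ 2 := by
    rw [mul_pow, sq_abs]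
    ring
  have e2 : 0 ≤ C * (∫ z, hat z) ^ 2 * M ^ 2 := by positivity
  rw [e1] at h1 h2
  rw [law_sum hE hB (δ n) hb, ← vts hE]
  rcases hB with rfl | rfl
  · rw [hts_arcs hE]
    refine (arcs_vec (hD.poly n) (hD.encl n) (FLDI.xi_pm (k n))
      (c := fun _ => (|M| * ∫ z, hat z) * δ n ^ 2) fun v _ => wt_le hδ (S n) hM _).trans ?_
    linarith
  · rw [hts_free hE]
    refine (free_vec (hD.poly n) (hD.encl n)
      (c := fun _ => (|M| * ∫ z, hat z) * δ n ^ 2) fun v _ => wt_le hδ (S n) hM _).trans ?_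
    linarith

/-- **The second moments are bounded.** -/
theorem momh (hA : Approx Φ δ N k p S) : ∃ C : ℝ, 0 ≤ C ∧ ∀ n,
    ∀ B : ZMod (N n) → Set ℤ, (B = arcs (k n) ∨ B = free) →
      ∀ (E : Type) [NormedAddCommGroup E] [InnerProductSpace ℝ E] (b : ℂ → E) (M : ℝ),
        Continuous b → (∀ z ∈ region (δ n) (S n), ‖b z‖ ≤ M) →
        ∫ g, ‖∫ z in region (δ n) (S n), ext g (z / δ n) • b z‖ ^ 2 ∂law (p n) (S n) B ≤
          C * M ^ 2 := by
  obtain ⟨C, hC0, hC⟩ := momh_ev hA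
  obtain ⟨n0, hn0⟩ := eventually_atTop.1 hC
  choose c hc0 hc using fun n => mom_one (hA.1 n).2.2.2 (k n) (hA.1 n).1
  have hs : 0 ≤ ∑ i ∈ Finset.range n0, c i := Finset.sum_nonneg fun i _ => hc0 i
  refine ⟨C + ∑ i ∈ Finset.range n0, c i, by positivity, ?_⟩
  intro n B hB E _ _ b M hb hM
  rcases le_or_gt n0 n with h | h
  · refine (hn0 n h B hB E b M hb hM).trans ?_
    exact mul_le_mul_of_nonneg_right (by linarith) (sq_nonneg M)
  · refine (hc n B hB E b M hb hM).trans ?_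
    have h1 : c n ≤ ∑ i ∈ Finset.range n0, c i :=
      Finset.single_le_sum (fun i _ => hc0 i) (Finset.mem_range.2 h)
    exact mul_le_mul_of_nonneg_right (by linarith) (sq_nonneg M)

/-- The lattice domains stay in a ball. -/
theorem reg_ball (hA : Approx Φ δ N k p S) :
    ∃ R : ℝ, 0 < R ∧ ∀ n, region (δ n) (S n) ⊆ Metric.closedBall 0 R := by
  obtain ⟨R, hR0, hR⟩ := verts_ball FLDI.jordF (approxD hA)
  obtain ⟨n0, hn0⟩ := eventually_atTop.1 hR
  have h1 : IsCompact (⋃ n ∈ Finset.range n0, region (δ n) (S n)) :=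
    (Finset.range n0).isCompact_biUnion fun n _ => region_cpt _ _
  obtain ⟨R', hR'0, hR'⟩ := h1.isBounded.subset_closedBall_lt 0 (0 : ℂ)
  refine ⟨R' + 2 * R, by linarith, fun n => ?_⟩
  rcases le_or_gt n0 n with h | h
  · refine iUnion₂_subset fun t ht => convexHull_min ?_ (convex_closedBall _ _)
    rintro _ ⟨v, hv, rfl⟩
    have h2 : v ∈ F.Dom.verts (old (S n)) := by
      rw [vts (hA.1 n).2.2.2]
      exact Finset.mem_biUnion.2 ⟨t, ht, hv⟩
    have h3 := (hn0 n h).2 v h2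
    have h4 : F.Top.dp (δ n) v = e ((δ n : ℂ) * pt v) := by
      rw [← Complex.real_smul, map_smul, e_pt]
      rfl
    rw [h4, e_apply, mem_ball_zero_iff, Prod.norm_def, sup_lt_iff, Real.norm_eq_abs,
      Real.norm_eq_abs] at h3
    rw [mem_closedBall_zero_iff]
    linarith [Complex.norm_le_abs_re_add_abs_im ((δ n : ℂ) * pt v), h3.1, h3.2]
  · refine (subset_biUnion_of_mem (u := fun n => region (δ n) (S n))
      (Finset.mem_coe.2 (Finset.mem_range.2 h))).trans (hR'.trans ?_)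
    exact Metric.closedBall_subset_closedBall (by linarith)

end

end P153DM
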