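import Vale.Agent.P153.H212.Free

/-!
Second moments of vector valued linear forms of the heights, at the level of the lattice.
-/

set_option autoImplicit false

namespace P153DM

open Filter Topology Set MeasureTheory ProbabilityTheory
open Vale.Agent.P145.PT Vale.Agent.P153 Vale.Agent.P153.F.Top Vale.Agent.P153.R2
open Vale.Agent.P153.R2.FLDI
open Vale.Agent.P153.F.Dom.Arcs (HeightsB)
open scoped RealInnerProductSpace

variable {E : Type} [NormedAddCommGroup E] [InnerProductSpace ℝ E]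

/-- The second moment of a vector valued linear form is dominated by a scalar one. -/
theorem ze_vec (I : Finset (ℤ × ℤ)) {β : ℤ × ℤ → E} {c : ℤ × ℤ → ℝ} (h : ∀ v ∈ I, ‖β v‖ ≤ c v) :
    ze I (fun ω => ‖∑ v ∈ I, ω v • β v‖ ^ 2) ≤ ze I (fun ω => lf I c ω ^ 2) := by
  have hC : Cone (fun ω => ∑ v ∈ I, ∑ w ∈ I, (c v * c w - ⟪β v, β w⟫) * ([v, w].map ω).prod) := by
    refine Pol.sum I _ fun v hv => Pol.sum I _ fun w hw => (Pol.mon [v, w]).smul _ ?_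
    have h1 := real_inner_le_norm (β v) (β w)
    have h2 := mul_le_mul (h v hv) (h w hw) (norm_nonneg _) ((norm_nonneg _).trans (h v hv))
    linarith
  have h1 := cone_ze_nonneg s_mono I hC
  have e : (fun ω : Om => ∑ v ∈ I, ∑ w ∈ I, (c v * c w - ⟪β v, β w⟫) * ([v, w].map ω).prod) =
      fun ω => lf I c ω ^ 2 + (-1) * ‖∑ v ∈ I, ω v • β v‖ ^ 2 := by
    funext ω
    rw [← real_inner_self_eq_norm_sq, sum_inner, lf, sq, Finset.sum_mul_sum, neg_one_mul,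
      ← sub_eq_add_neg, ← Finset.sum_sub_distrib]
    refine Finset.sum_congr rfl fun v _ => ?_
    rw [inner_sum, ← Finset.sum_sub_distrib]
    refine Finset.sum_congr rfl fun w _ => ?_
    rw [real_inner_smul_left, real_inner_smul_right]
    simp only [List.map_cons, List.map_nil, List.prod_cons, List.prod_nil]
    ring
  rw [e, ze_add', ze_smul'] at h1
  linarith

omit [InnerProductSpace ℝ E] in
theorem sq_close {a b : E} {s : ℝ} (h : ‖a - b‖ ≤ s) : ‖a‖ ^ 2 ≤ 2 * ‖b‖ ^ 2 + 2 * s ^ 2 := by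
  have h1 : ‖a‖ ≤ ‖b‖ + s := by
    have h2 := norm_add_le b (a - b)
    rw [add_sub_cancel] at h2
    linarith
  have h3 := pow_le_pow_left₀ (norm_nonneg _) h1 2
  nlinarith [sq_nonneg (‖b‖ - s)]

theorem sum_close (W : Finset (ℤ × ℤ)) {β : ℤ × ℤ → E} {c : ℤ × ℤ → ℝ}
    (h : ∀ v ∈ W, ‖β v‖ ≤ c v) {x y : ℤ × ℤ → ℝ} {t : ℝ} (hxy : ∀ v ∈ W, |x v - y v| ≤ t) :
    ‖∑ v ∈ W, x v • β v - ∑ v ∈ W, y v • β v‖ ≤ t * ∑ v ∈ W, c v := by
  rw [← Finset.sum_sub_distrib, Finset.mul_sum]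
  refine (norm_sum_le _ _).trans (Finset.sum_le_sum fun v hv => ?_)
  rw [← sub_smul, norm_smul, Real.norm_eq_abs]
  exact mul_le_mul (hxy v hv) (h v hv) (norm_nonneg _) ((abs_nonneg _).trans (hxy v hv))

theorem vec_meas (W : Finset (ℤ × ℤ)) (β : ℤ × ℤ → E) :
    Measurable fun h : ℤ × ℤ → ℤ => ‖∑ v ∈ W, (h v : ℝ) • β v‖ ^ 2 := by
  refine Continuous.measurable ?_
  refine (Continuous.norm (continuous_finsetSum _ fun v _ => ?_)).pow 2
  have h1 : Continuous fun x : ℤ => (x : ℝ) := continuous_of_discreteTopology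
  exact (h1.comp (continuous_apply v)).smul continuous_const

variable {n : ℕ} {p : ZMod n → ℤ × ℤ} {S : Finset ((ℤ × ℤ) × Bool)}

/-- Free boundary values. -/
theorem free_vec (hp : F.Dom.IsPolygon p) (hS : F.Dom.Encloses p S) {β : ℤ × ℤ → E}
    {c : ℤ × ℤ → ℝ} (h : ∀ v ∈ F.Dom.verts S, ‖β v‖ ≤ c v) :
    Ex (F.Dom.Heights p S) (fun g => ‖∑ v ∈ F.Dom.verts S, (g v : ℝ) • β v‖ ^ 2) ≤
      2 * ze (F.Dom.inner p S) (fun ω => lf (F.Dom.inner p S) c ω ^ 2) +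
        2 * (∑ v ∈ F.Dom.verts S, c v) ^ 2 := by
  obtain ⟨hfin, hne, -, -, hze⟩ := F.Dom.s_law p S hp hS
  set I := F.Dom.inner p S with hI
  have hIW : I ⊆ F.Dom.verts S := fun v hv => (F.Dom.dl_inner.1 hv).1
  have h1 : Ex (F.Dom.Heights p S) (fun g => ‖∑ v ∈ F.Dom.verts S, (g v : ℝ) • β v‖ ^ 2) ≤
      Ex (F.Dom.Heights p S) (fun g => 2 * ‖∑ v ∈ I, vh I g v • β v‖ ^ 2 +
        2 * (∑ v ∈ F.Dom.verts S, c v) ^ 2) := by
    refine Ex_mono fun g hg => sq_close ?_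
    have e : ∑ v ∈ I, vh I g v • β v = ∑ v ∈ F.Dom.verts S, vh I g v • β v := by
      refine Finset.sum_subset hIW fun v _ hv => ?_
      unfold vh
      rw [if_neg hv, zero_smul]
    rw [e]
    have h2 := sum_close (F.Dom.verts S) h (x := fun v => (g v : ℝ)) (y := vh I g) (t := 1)
      (fun v hv => ?_)
    · rwa [one_mul] at h2
    · unfold vh
      by_cases hvI : v ∈ I
      · rw [if_pos hvI, sub_self, abs_zero]
        exact zero_le_one
      · rw [if_neg hvI, sub_zero]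
        have h3 : ∃ i, p i = v := by
          by_contra hc
          exact hvI (F.Dom.dl_inner.2 ⟨hv, fun i hi => hc ⟨i, hi⟩⟩)
        obtain ⟨i, rfl⟩ := h3
        rcases hg.2.1 i with h4 | h4 <;> rw [h4] <;> norm_num
  refine h1.trans ?_
  rw [Ex_add, Ex_const hfin hne, Ex_const_mul]
  have h2 := unif_spec hfin hne
  have h3 : Ex (F.Dom.Heights p S) (fun g => ‖∑ v ∈ I, vh I g v • β v‖ ^ 2) =
      ze I (fun ω => ‖∑ v ∈ I, ω v • β v‖ ^ 2) := by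
    rw [← h2.2.2, ← hze (fun ω => ‖∑ v ∈ I, ω v • β v‖ ^ 2), JG.law_eq hp hS]
    rfl
  rw [h3]
  have h4 := ze_vec I (β := β) (c := c) fun v hv => h v (hIW hv)
  linarith

/-- Exact boundary values. -/
theorem arcs_vec (hp : F.Dom.IsPolygon p) (hS : F.Dom.Encloses p S) {ξ : ZMod n → ℤ}
    (hξ : ∀ i, ξ i = 1 ∨ ξ i = -1) {β : ℤ × ℤ → E}
    {c : ℤ × ℤ → ℝ} (h : ∀ v ∈ F.Dom.verts S, ‖β v‖ ≤ c v) :
    Ex (HeightsB p S ξ) (fun g => ‖∑ v ∈ F.Dom.verts S, (g v : ℝ) • β v‖ ^ 2) ≤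
      4 * ze (F.Dom.inner p S) (fun ω => lf (F.Dom.inner p S) c ω ^ 2) +
        12 * (∑ v ∈ F.Dom.verts S, c v) ^ 2 := by
  obtain ⟨hfin, hne, -, -, -⟩ := F.Dom.s_law p S hp hS
  have h1 := arcs_le hp hS hξ (F := fun g => ‖∑ v ∈ F.Dom.verts S, (g v : ℝ) • β v‖ ^ 2)
    (G := fun g => 2 * ‖∑ v ∈ F.Dom.verts S, (g v : ℝ) • β v‖ ^ 2 +
      2 * (2 * ∑ v ∈ F.Dom.verts S, c v) ^ 2) (vec_meas _ β)
    (((vec_meas _ β).const_mul _).add_const _)
    (fun a b hab => sq_close (sum_close _ h fun v _ => by exact_mod_cast hab v))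
  refine h1.trans ?_
  rw [Ex_add, Ex_const hfin hne, Ex_const_mul]
  have h2 := free_vec hp hS h
  nlinarith

theorem mb {δ : ℕ → ℝ} (hδ : ∀ n, 0 < δ n) (hlim : Tendsto δ atTop (𝓝 0)) : S_mb δ := by
  obtain ⟨Q, κ', hQ, hP, hS, hC, hκ, -⟩ := F.exists_all
  have hκ0 : 0 < κ' := R2.KPOS.kpos hQ hP hS hκ
  exact (F.inputs_of hP hS hC hκ0 (F.lvl_of hQ hP hS hC hκ0) hδ hlim).mb

/-- The vertices stay in a bounded set. -/
theorem verts_ball {D : Set (ℝ × ℝ)} (hD : F.Dom.JordanDomain D) {δ : ℕ → ℝ} {N : ℕ → ℕ}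
    {p : ∀ n, ZMod (N n) → ℤ × ℤ} {S : ℕ → Finset ((ℤ × ℤ) × Bool)}
    (hA : F.Dom.Approx D δ N p S) : ∃ R : ℝ, 0 < R ∧ ∀ᶠ n in atTop,
      F.Dom.inner (p n) (S n) ⊆ Vs (δ n) (Metric.ball 0 R) ∧
      ∀ v ∈ F.Dom.verts (S n), dp (δ n) v ∈ Metric.ball (0 : ℝ × ℝ) R := by
  have hJ' : Vale.Agent.P145.Dom.JordanDomain D := hD
  obtain ⟨R, hR0, hR⟩ := hJ'.isBounded.closure.subset_ball_lt 0 (0 : ℝ × ℝ)
  refine ⟨R + 1, by linarith, ?_⟩
  have h1 := F.Dom.s_out D δ N p S hD hA (Metric.ball 0 (R + 1)) Metric.isOpen_ball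
    Metric.isBounded_ball (hR.trans (Metric.ball_subset_ball (by linarith)))
  filter_upwards [h1, hA.near 1 one_pos] with n h2 h3
  refine ⟨h2, fun v hv => ?_⟩
  by_cases hvI : v ∈ F.Dom.inner (p n) (S n)
  · have h4 := (mem_Vs (hA.pos n) Metric.isBounded_ball).1 (h2 hvI)
    exact h4 (Metric.mem_closedBall_self (by linarith [hA.pos n]))
  · have h5 : ∃ i, p n i = v := by
      by_contra hc
      exact hvI (F.Dom.dl_inner.2 ⟨hv, fun i hi => hc ⟨i, hi⟩⟩)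
    obtain ⟨i, rfl⟩ := h5
    obtain ⟨z, hz, hd⟩ := h3 i
    have h6 := hR (subset_closure hz)
    have e : dp (δ n) (p n i) = δ n • F.Dom.pt (p n i) := rfl
    rw [Metric.mem_ball] at h6 ⊢
    rw [e]
    linarith [dist_triangle (δ n • F.Dom.pt (p n i)) z 0]

/-- The scalar bounds. -/
theorem scal {D : Set (ℝ × ℝ)} (hD : F.Dom.JordanDomain D) {δ : ℕ → ℝ} {N : ℕ → ℕ}
    {p : ∀ n, ZMod (N n) → ℤ × ℤ} {S : ℕ → Finset ((ℤ × ℤ) × Bool)}
    (hA : F.Dom.Approx D δ N p S) : ∃ C : ℝ, 0 ≤ C ∧ ∀ᶠ n in atTop, ∀ e : ℝ,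
      ze (F.Dom.inner (p n) (S n))
        (fun ω => lf (F.Dom.inner (p n) (S n)) (fun _ => e * δ n ^ 2) ω ^ 2) ≤ C * e ^ 2 ∧
      (∑ _v ∈ F.Dom.verts (S n), e * δ n ^ 2) ^ 2 ≤ C * e ^ 2 := by
  obtain ⟨R, hR0, hR⟩ := verts_ball hD hA
  obtain ⟨χ, hχ, hχ0, hχ1⟩ := exists_one (D := Metric.ball (0 : ℝ × ℝ) (R + 1)) Metric.isOpen_ball
    Metric.isBounded_ball (isCompact_closedBall 0 R)
    (Metric.closedBall_subset_ball (by linarith))
  have hsupp : ∀ z, χ z ≠ 0 → z ∈ Metric.ball (0 : ℝ × ℝ) (R + 1) :=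
    fun z hz => hχ.2.2 (subset_tsupport _ hz)
  obtain ⟨C1, hC1⟩ := mb hA.pos hA.lim (Metric.ball 0 R) Metric.isOpen_ball Metric.isBounded_ball χ
    (hχ.mono (subset_univ _)) hχ0 2
  have hab := riem_ab hχ.cont hχ.2.1 hsupp hA.pos hA.lim
  set A : ℝ := (∫ z, |χ z|) + 1 with hAd
  have hab' : ∀ᶠ n in atTop, ab (Bx (δ n) (R + 1)) (δ n) χ < A :=
    hab.eventually (gt_mem_nhds (by linarith))
  have h3 : (0 : ℝ) < √3 := by positivity
  refine ⟨(2 / √3) ^ 2 * (max C1 0 + A ^ 2), by positivity, ?_⟩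
  filter_upwards [hR, hC1, hab'] with n ⟨h1, h2⟩ h4 h5 e
  have hδ := hA.pos n
  set I := F.Dom.inner (p n) (S n) with hI
  have hIW : I ⊆ F.Dom.verts (S n) := fun v hv => (F.Dom.dl_inner.1 hv).1
  have htl : ∀ v ∈ F.Dom.verts (S n),
      e * δ n ^ 2 = (e * (2 / √3)) * (δ n ^ 2 * tl χ (δ n * v.1, δ n * v.2)) := by
    intro v hv
    rw [tl_dp, hχ1 _ (Metric.ball_subset_closedBall (h2 v hv))]
    field_simp
  have hm : 0 ≤ max C1 0 := le_max_right _ _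
  constructor
  · have e1 : ze I (fun ω => lf I (fun _ => e * δ n ^ 2) ω ^ 2) =
        ze I (fun ω => (e * (2 / √3)) ^ 2 * hB (Bx (δ n) (R + 1)) (δ n) χ ω ^ 2) := by
      refine ze_congr fun ω hω => ?_
      rw [← hv_Bx hδ hsupp, hv_eq_lf (δ n) χ hω, ← mul_pow]
      congr 1
      unfold lf
      rw [Finset.mul_sum]
      refine Finset.sum_congr rfl fun v hv => ?_
      rw [htl v (hIW hv)]
      ring
    rw [e1, ze_smul']
    have h6 := cone_ze_mono s_mono h1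
      (cone_pow (B := Bx (δ n) (R + 1)) (δ := δ n) hχ0 2)
    have h7 : ze (Vs (δ n) (Metric.ball (0 : ℝ × ℝ) R))
        (fun ω => hB (Bx (δ n) (R + 1)) (δ n) χ ω ^ 2) =
        EE (δ n) (Metric.ball 0 R) (fun ω => hv (δ n) χ ω ^ 2) := by
      unfold EE
      congr 1
      funext ω
      rw [hv_Bx hδ hsupp]
    rw [h7] at h6
    have h8 := (h6.trans h4).trans (le_max_left C1 0)
    have h9 := mul_le_mul_of_nonneg_left h8 (sq_nonneg (e * (2 / √3)))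
    refine h9.trans ?_
    have : 0 ≤ (e * (2 / √3)) ^ 2 * A ^ 2 := by positivity
    nlinarith
  · rw [Finset.sum_congr rfl htl, ← Finset.mul_sum, mul_pow]
    have hc0 : ∀ v : ℤ × ℤ, 0 ≤ δ n ^ 2 * tl χ (δ n * v.1, δ n * v.2) := fun v =>
      mul_nonneg (sq_nonneg _) (tl_nonneg hχ0 _)
    have h6 : ∑ v ∈ F.Dom.verts (S n), δ n ^ 2 * tl χ (δ n * v.1, δ n * v.2) ≤ A := by
      have h7 : ∑ v ∈ F.Dom.verts (S n), δ n ^ 2 * tl χ (δ n * v.1, δ n * v.2) ≤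
          ∑ v ∈ Bx (δ n) (R + 1), δ n ^ 2 * tl χ (δ n * v.1, δ n * v.2) := by
        refine Finset.sum_le_sum_of_subset_of_nonneg (fun v hv => ?_) fun v _ _ => hc0 v
        rw [mem_Bx hδ]
        exact Metric.ball_subset_ball (by linarith) (h2 v hv)
      refine h7.trans (le_trans (le_of_eq ?_) h5.le)
      unfold ab
      rw [Finset.mul_sum]
      refine Finset.sum_congr rfl fun v _ => ?_
      rw [abs_of_nonneg (tl_nonneg hχ0 _)]
    have h8 := pow_le_pow_left₀ (Finset.sum_nonneg fun v _ => hc0 v) h6 2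
    have h9 := mul_le_mul_of_nonneg_left h8 (sq_nonneg (e * (2 / √3)))
    refine h9.trans ?_
    have : 0 ≤ (e * (2 / √3)) ^ 2 * max C1 0 := by positivity
    nlinarith

end P153DM
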